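import Vale.Agent.P092IN.Lp
import Vale.Agent.P092SY.Pos
import Vale.Agent.P092NW.Defs

/-!
P092 (helper76), block PAIR: the ping-pong inequality for the concrete two-sided system.
-/

set_option linter.all false

open scoped InnerProductSpace ENNReal NNReal
open MeasureTheory Filter Topology ContinuousLinearMap

namespace Vale.Agent.P092IN

open Vale.Agent.P092.RC (Cm)
open Vale.Agent.P092CP Vale.Agent.P092ST Vale.Agent.P092FA Vale.Agent.P092SY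
open Vale.Agent.P092LG (PP OrP)
open Vale.Agent.P092WN (Sys)
open Vale.Agent.P092NW (Hm Pair)

variable {G G' K 𝒦 H₀ : Type} [Group G] [TopologicalSpace G] [IsTopologicalGroup G]
  [LocallyCompactSpace G] [SecondCountableTopology G] [T2Space G] [MeasurableSpace G] [BorelSpace G]
  [Group G'] [TopologicalSpace G'] [IsTopologicalGroup G'] [LocallyCompactSpace G']
  [SecondCountableTopology G'] [T2Space G'] [MeasurableSpace G'] [BorelSpace G']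
  [NormedAddCommGroup K] [InnerProductSpace ℂ K] [CompleteSpace K] {μ : Measure G}
  [μ.IsHaarMeasure] {μ' : Measure G'} [μ'.IsHaarMeasure] {W : Set (K →L[ℂ] K)}
  [NormedAddCommGroup 𝒦] [InnerProductSpace ℂ 𝒦] [CompleteSpace 𝒦]
  [NormedAddCommGroup H₀] [InnerProductSpace ℂ H₀]
  {C : Cpl μ μ' W} {A : Amb G C.t.Γ 𝒦} (F : Fr C A)

theorem sl : Sl F.ι := ⟨F.iso, F.orth, F.tot⟩

theorem mod : Mod C F.ι (D A) (vv A) where
  sl := sl F
  gns := (bimA A).toGns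
  mem a ha := (F.cm_iff a).1 ha.1
  nrm a ha := by
    rw [← ofReal_norm, ← ENNReal.ofReal_pow (norm_nonneg _),
      F.norm_vv (Amb.deg_one_iff.2 ha.1) ha.2, ← ha.2.H2_eq, Amb.H2]
    simp only [F.Ω_eq]

theorem ent_of {T : 𝒦 →L[ℂ] 𝒦} (h : Cm A.𝓦 T) : Ent F.ι W T :=
  fun k i => ((F.cm_iff T).1 h k i).1

theorem fin_mem (s : Finset ℕ) : ∑ k ∈ s, F.ι k ∘L adjoint (F.ι k) ∈ D A :=
  Submodule.sum_mem _ fun k _ => ⟨(F.cm_iff _).2 fun i j => C.t.M_iff.2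
    ((sl F).ent_slot cm_one k k i j), Amb.hs_iff.2 (summable_of_ne_finset_zero (s := {k})
      fun i hi => by
        rw [F.Ω_eq, comp_apply, F.orth k i (Ne.symm (Finset.notMem_singleton.1 hi))]; simp)⟩

theorem U_up (g : G) {E : Set G'} (hE : MeasurableSet E) :
    F.U g * up F.ι (C.t.P E) = up F.ι (C.t.P E) * F.U g := F.ext_ι fun i ξ => by
  rw [mul_ap, mul_ap, (sl F).up_ι, F.U_ι, F.U_ι, (sl F).up_ι]
  exact congrArg (F.ι i) (ap_eq (C.V_m g (Bd.ind hE)) ξ)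

variable {S : Sys G C.t.Γ (HH A) H₀}
include F

/-- homogeneous right multiplications come from homogeneous operators -/
theorem deg_of (hm : ∀ f, S.m f = lm A (Mf A f)) {b : G → HH A →L[ℂ] HH A} {t : C.t.Γ}
    (h : Hm S b t) {g : G} {c : 𝒦 →L[ℂ] 𝒦} (hc : Cm A.𝓦 c) (e : b g = rm A c) (k i : ℕ) :
    C.t.Deg t (en F.ι c k i) := by
  have hp : F.ι k ∘L adjoint (F.ι k) ∈ D A := by simpa using fin_mem F {k}
  have hb : P092WN.Bd (Set.indicator {t}ᶜ (1 : C.t.Γ → ℝ)) :=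
    ⟨1, fun γ => by by_cases e : γ ∈ ({t}ᶜ : Set C.t.Γ) <;> simp [e]⟩
  have hb' : P092WN.Bd fun γ => Set.indicator {t}ᶜ (1 : C.t.Γ → ℝ) (γ * t) :=
    hb.imp fun c hc γ => hc _
  have h1 := h.hom g _ hb (vv A (F.ι k ∘L adjoint (F.ι k)))
  have h2 : lm A (Mf A fun γ => Set.indicator {t}ᶜ (1 : C.t.Γ → ℝ) (γ * t))
      (vv A (F.ι k ∘L adjoint (F.ι k))) = 0 := Subtype.ext (by
    rw [(F.inv_Mf hb').coe, coe_vv (mem_cl hp)]
    refine lp.ext (funext fun n => ?_)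
    rw [diag_ap, hp.2.vec_ap, comp_apply, F.Ω_eq]
    by_cases a : k = n
    · rw [a, F.iso, ← F.Ω_eq, ← F.Pj_Ω n, ← mul_ap, F.Mf_Pj hb']
      simp
    · rw [F.orth k n a, map_zero, map_zero]
      rfl)
  have hq := (bimA A).mulD' hp hc
  rw [hm, hm, h2, map_zero, e, rm_v hc hp] at h1
  have h3 : A.Pj {t}ᶜ ((F.ι k ∘L adjoint (F.ι k) * c) (A.Ω i)) = 0 := by
    rw [← hq.2.vec_ap, ← F.Mf_ind, ← diag_ap, ← coe_vv (mem_cl hq), ← (F.inv_Mf hb).coe, h1]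
    rfl
  have h4 := ap_eq (A.Pj_compl {t}) ((F.ι k ∘L adjoint (F.ι k) * c) (A.Ω i))
  rw [add_apply, h3, mul_ap, comp_apply, F.Ω_eq, F.Pj_cell] at h4
  have h5 := congrArg (adjoint (F.ι k)) h4
  have hM : C.t.M (en F.ι c k i) := (F.cm_iff c).1 hc k i
  rw [← C.eq_of_Ω (C.t.M_fc (γ := t) hM) hM (by rw [C.t.fc_Ω]; simpa [F.iso, en_ap] using h5)]
  exact C.t.deg_fc hM.1

theorem norm_of (hA : ∀ ξ r, S.Am ξ r ↔ Fr.Am ξ r) {c : 𝒦 →L[ℂ] 𝒦} (hc : Cm A.𝓦 c)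
    (h : S.Ct (rm A c)) : ‖c‖ ≤ 1 := (sl F).norm_le_of_fin zero_le_one fun s => by
  obtain ⟨d, h1, h2, h3⟩ := (hA _ _).1
    (h.2 _ _ ((hA _ 1).2 ⟨_, fin_mem F s, rfl, (sl F).norm_fin s⟩))
  rw [rm_v hc (fin_mem F s)] at h2
  rwa [(bimA A).eq_of_v ((bimA A).mulD' (fin_mem F s) hc) h1 h2]

/-- **The ping-pong inequality.** -/
theorem pair {ω : 𝒦 →L[ℂ] 𝒦} (h1 : A.Deg 1 ω) (h2 : star ω * ω = A.V 1)
    (hm : ∀ f, S.m f = lm A (Mf A f)) (hL : ∀ h, S.L h = lm A (tw A ω h))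
    (hR : ∀ b, S.Rt b → F.Rt b) (hA : ∀ ξ r, S.Am ξ r ↔ Fr.Am ξ r) {p : ℕ} {s : Fin p → G}
    (hs : PP s) : Pair S μ' C.t.Γ.subtype s := by
  intro g I _ deg r hr hct X Y hX hY B B' L hB hB' hK a1 a2 a3 α β hα hβ a4 a5
  choose y hy hy' using fun l i => hR _ (hr l i).rt
  have hc := fun l i => F.cm_conj (hy l i) g
  have e : ∀ w : K →L[ℂ] K, (ω ∘L F.ι 0) ∘L w ∘L adjoint (ω ∘L F.ι 0) =
      ω * (F.ι 0 ∘L w ∘L adjoint (F.ι 0)) * adjoint ω := fun w => by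
    rw [adjoint_comp]; rfl
  have hω := ent_of F (Amb.deg_one_iff.1 h1)
  refine (mod F).int (j := ω ∘L F.ι 0) (fun ξ => ?_) (fun w hw => ?_) hs
    (U := fun l => F.U (s l)⁻¹) (fun l a ha => ?_) (fun l E hE => ?_) (fun l z => ?_)
    (c := fun l i => F.U g * y l i * F.U g⁻¹) (fun l i a ha => ?_)
    (fun l i => deg_of F hm (hr l i) (hc l i) (hy' l i g)) (fun l i => ent_of F (hc l i))
    (fun l => ?_) hX hY hB hB' hK a1 a2 a3 hα hβ a4 a5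
  · rw [adjoint_comp, comp_apply, comp_apply, ← mul_ap, ← star_eq_adjoint, h2, F.V_eq, comp_apply,
      comp_apply, F.iso, F.iso, map_one]
    rfl
  · rw [e]
    exact (sl F).ent_mul ((sl F).ent_mul hω ((sl F).ent_slot hw 0 0)) (hω.adj C.Wadj)
  · rw [e, ← F.V_eq, hL, F.vv_U, lm_v ha]
    exact ⟨F.mem_D (((h1.one_mul (Amb.deg_V _)).mul1 h1.star1).mul1 (Amb.deg_one_iff.2 ha.1))
      (ha.2.mul _), rfl⟩
  · exact U_up F _ hE
  · exact (F.U_ι _ _ _).trans (congrArg (F.ι z.1) (((C.V_cp _).ap _ _).trans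
      (congrArg (C.t.π z.2) (C.V_Ω _))))
  · exact ⟨(bimA A).mulD' ha (hc l i), by rw [hy', rm_v (hc l i) ha]⟩
  · refine norm_of F hA (cm_sum _ fun i _ => hc l i) ?_
    rw [rm_sum _ fun i _ => hc l i]
    simpa only [hy'] using hct l g

end Vale.Agent.P092IN
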