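import Vale.Agent.P092CP.Four

/-!
P092 (helper76), block PAIR: slots, matrix entries and diagonal operators on the amplified space.
-/

set_option linter.all false

open scoped InnerProductSpace ENNReal NNReal
open MeasureTheory Filter Topology ContinuousLinearMap

namespace Vale.Agent.P092IN

open Vale.Agent.P092.RC (Cm)
open Vale.Agent.P092CP

variable {K 𝒦 : Type} [NormedAddCommGroup K] [InnerProductSpace ℂ K] [CompleteSpace K]
  [NormedAddCommGroup 𝒦] [InnerProductSpace ℂ 𝒦] [CompleteSpace 𝒦]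

/-- `𝒦` is the orthogonal sum of the ranges of the isometries `ι i` -/
structure Sl (ι : ℕ → K →L[ℂ] 𝒦) : Prop where
  same : ∀ i ξ, adjoint (ι i) (ι i ξ) = ξ
  orth : ∀ i j, i ≠ j → ∀ ξ, adjoint (ι i) (ι j ξ) = 0
  sum : ∀ ξ, HasSum (fun i => ι i (adjoint (ι i) ξ)) ξ

/-- matrix entries -/
noncomputable def en (ι : ℕ → K →L[ℂ] 𝒦) (T : 𝒦 →L[ℂ] 𝒦) (k i : ℕ) : K →L[ℂ] K :=
  adjoint (ι k) ∘L T ∘L ι i

/-- diagonal operators -/
noncomputable def up (ι : ℕ → K →L[ℂ] 𝒦) (w : K →L[ℂ] K) : 𝒦 →L[ℂ] 𝒦 :=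
  gram Measure.count (fun i => adjoint (ι i)) fun i => w ∘L adjoint (ι i)

/-- all entries commute with `W` -/
def Ent (ι : ℕ → K →L[ℂ] 𝒦) (W : Set (K →L[ℂ] K)) (T : 𝒦 →L[ℂ] 𝒦) : Prop :=
  ∀ k i, Cm W (en ι T k i)

variable {ι : ℕ → K →L[ℂ] 𝒦} {T T' : 𝒦 →L[ℂ] 𝒦} {w w' : K →L[ℂ] K} {W : Set (K →L[ℂ] K)}

theorem en_ap (T : 𝒦 →L[ℂ] 𝒦) (k i : ℕ) (ξ : K) : en ι T k i ξ = adjoint (ι k) (T (ι i ξ)) := rfl

theorem en_add (T T' : 𝒦 →L[ℂ] 𝒦) (k i : ℕ) : en ι (T + T') k i = en ι T k i + en ι T' k i :=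
  ContinuousLinearMap.ext fun ξ => by simp [en_ap]

theorem en_smul (c : ℂ) (T : 𝒦 →L[ℂ] 𝒦) (k i : ℕ) : en ι (c • T) k i = c • en ι T k i :=
  ContinuousLinearMap.ext fun ξ => by simp [en_ap]

theorem en_zero (k i : ℕ) : en ι 0 k i = 0 := ContinuousLinearMap.ext fun ξ => by simp [en_ap]

theorem en_adj (T : 𝒦 →L[ℂ] 𝒦) (k i : ℕ) : en ι (adjoint T) k i = adjoint (en ι T i k) := by
  simp only [en, adjoint_comp, adjoint_adjoint, comp_assoc]

theorem Ent.add (h : Ent ι W T) (h' : Ent ι W T') : Ent ι W (T + T') := fun k i => by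
  rw [en_add]; exact cm_add (h k i) (h' k i)

theorem Ent.smul (c : ℂ) (h : Ent ι W T) : Ent ι W (c • T) := fun k i => by
  rw [en_smul]; exact cm_smul c (h k i)

theorem Ent.zero : Ent ι W 0 := fun k i => by rw [en_zero]; exact cm_zero

theorem Ent.adj (hW : ∀ w ∈ W, adjoint w ∈ W) (h : Ent ι W T) : Ent ι W (adjoint T) :=
  fun k i => by rw [en_adj]; exact cm_adj hW (h i k)

theorem Ent.sum {I : Type*} (s : Finset I) {F : I → 𝒦 →L[ℂ] 𝒦} (h : ∀ i ∈ s, Ent ι W (F i)) :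
    Ent ι W (∑ i ∈ s, F i) :=
  Finset.sum_induction F _ (fun _ _ => Ent.add) Ent.zero h

namespace Sl

variable (h : Sl ι)
include h

theorem inner_ι (i : ℕ) (ξ η : K) : ⟪ι i ξ, ι i η⟫_ℂ = ⟪ξ, η⟫_ℂ := by
  rw [← adjoint_inner_right, h.same]

theorem norm_ι (i : ℕ) (ξ : K) : ‖ι i ξ‖ = ‖ξ‖ := by
  rw [norm_eq_sqrt_re_inner (𝕜 := ℂ), h.inner_ι, ← norm_eq_sqrt_re_inner]

theorem hasSum_inner (ξ η : 𝒦) :
    HasSum (fun i => ⟪adjoint (ι i) ξ, adjoint (ι i) η⟫_ℂ) ⟪ξ, η⟫_ℂ := by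
  have h1 := (innerSL ℂ ξ).hasSum (h.sum η)
  simp only [innerSL_apply_apply] at h1
  simpa only [adjoint_inner_left] using h1

theorem hasSum_sq (ξ : 𝒦) : HasSum (fun i => ‖adjoint (ι i) ξ‖ ^ 2) (‖ξ‖ ^ 2) := by
  have h1 := Complex.hasSum_re (h.hasSum_inner ξ ξ)
  have e : ∀ {E : Type} [NormedAddCommGroup E] [InnerProductSpace ℂ E] (x : E),
      (⟪x, x⟫_ℂ).re = ‖x‖ ^ 2 := fun x => inner_self_eq_norm_sq (𝕜 := ℂ) x
  simpa only [e] using h1

theorem enorm_sq (ξ : 𝒦) : ‖ξ‖ₑ ^ 2 = ∑' i, ‖adjoint (ι i) ξ‖ₑ ^ 2 := by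
  have h1 := ENNReal.ofReal_tsum_of_nonneg (fun i => sq_nonneg _) (h.hasSum_sq ξ).summable
  rw [(h.hasSum_sq ξ).tsum_eq] at h1
  simpa only [ENNReal.ofReal_pow (norm_nonneg _), ofReal_norm] using h1

theorem ext (e : ∀ i ξ, T (ι i ξ) = T' (ι i ξ)) : T = T' :=
  ContinuousLinearMap.ext fun ξ => (T.hasSum (h.sum ξ)).unique (by
    simpa only [e] using T'.hasSum (h.sum ξ))

theorem ext_vec {ξ η : 𝒦} (e : ∀ i, adjoint (ι i) ξ = adjoint (ι i) η) : ξ = η :=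
  (h.sum ξ).unique (by simpa only [e] using h.sum η)

theorem ext_en (e : ∀ k i, en ι T k i = en ι T' k i) : T = T' :=
  h.ext fun i ξ => h.ext_vec fun k => ap_eq (e k i) ξ

theorem sqi : SqI Measure.count (fun i => adjoint (ι i)) 1 :=
  ⟨fun ξ => StronglyMeasurable.of_discrete.aestronglyMeasurable, zero_le_one, fun ξ => by
    rw [lintegral_count, ← h.enorm_sq]; simp⟩

theorem sqi' (w : K →L[ℂ] K) : SqI Measure.count (fun i => w ∘L adjoint (ι i)) (‖w‖ * 1) :=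
  h.sqi.mono (fun ξ => StronglyMeasurable.of_discrete.aestronglyMeasurable) (norm_nonneg _)
    fun i ξ => w.le_opNorm _

theorem up_ι (w : K →L[ℂ] K) (j : ℕ) (η : K) : up ι w (ι j η) = ι j (w η) :=
  ext_inner_left ℂ fun ξ => by
    rw [up, h.sqi.inner_gram (h.sqi' w), ← setIntegral_eq_integral_of_forall_compl_eq_zero
      (s := {j}) fun i hi => by rw [comp_apply, h.orth i j hi, map_zero, inner_zero_right],
      integral_singleton, Measure.real, Measure.count_singleton, ENNReal.toReal_one, one_smul,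
      comp_apply, h.same, adjoint_inner_left]

theorem norm_up (w : K →L[ℂ] K) : ‖up ι w‖ ≤ ‖w‖ := by
  simpa [up] using h.sqi.norm_gram (h.sqi' w)

theorem en_up_same (w : K →L[ℂ] K) (i : ℕ) : en ι (up ι w) i i = w :=
  ContinuousLinearMap.ext fun ξ => by rw [en_ap, h.up_ι, h.same]

theorem en_up_ne (w : K →L[ℂ] K) {k i : ℕ} (e : k ≠ i) : en ι (up ι w) k i = 0 :=
  ContinuousLinearMap.ext fun ξ => by rw [en_ap, h.up_ι, h.orth k i e]; rfl

theorem adj_up (w : K →L[ℂ] K) : adjoint (up ι w) = up ι (adjoint w) :=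
  h.ext_en fun k i => by
    rw [en_adj]
    by_cases e : k = i
    · rw [e, h.en_up_same, h.en_up_same]
    · rw [h.en_up_ne _ e, h.en_up_ne _ (Ne.symm e), map_zero]

theorem adj_ι_up (w : K →L[ℂ] K) (k : ℕ) (ξ : 𝒦) :
    adjoint (ι k) (up ι w ξ) = w (adjoint (ι k) ξ) :=
  ext_inner_left ℂ fun η => by
    rw [adjoint_inner_right, ← adjoint_inner_left, h.adj_up, h.up_ι, ← adjoint_inner_right,
      adjoint_inner_left]

theorem up_mul (w w' : K →L[ℂ] K) : up ι (w * w') = up ι w * up ι w' :=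
  h.ext fun i ξ => by rw [mul_ap, h.up_ι, h.up_ι, h.up_ι, mul_ap]

theorem up_one : up ι 1 = 1 := h.ext fun i ξ => by rw [h.up_ι]; rfl

theorem en_mul_up (T : 𝒦 →L[ℂ] 𝒦) (w : K →L[ℂ] K) (k i : ℕ) :
    en ι (T * up ι w) k i = en ι T k i * w :=
  ContinuousLinearMap.ext fun ξ => by rw [en_ap, mul_ap, h.up_ι, mul_ap, en_ap]

theorem en_up_mul (T : 𝒦 →L[ℂ] 𝒦) (w : K →L[ℂ] K) (k i : ℕ) :
    en ι (up ι w * T) k i = w * en ι T k i :=
  ContinuousLinearMap.ext fun ξ => by rw [en_ap, mul_ap, h.adj_ι_up, mul_ap, en_ap]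

/-- the entries commute with `W` iff the operator commutes with the diagonal operators -/
theorem ent_iff : Ent ι W T ↔ Cm (up ι '' W) T := by
  refine ⟨fun hT => ?_, fun hT k i w hw => ?_⟩
  · rintro _ ⟨w, hw, rfl⟩
    exact h.ext_en fun k i => by rw [h.en_mul_up, h.en_up_mul, hT k i w hw]
  · rw [← h.en_mul_up, ← h.en_up_mul, hT _ ⟨w, hw, rfl⟩]

theorem ent_mul (hT : Ent ι W T) (hT' : Ent ι W T') : Ent ι W (T * T') :=
  h.ent_iff.2 (cm_mul (h.ent_iff.1 hT) (h.ent_iff.1 hT'))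

theorem ent_up (hw : Cm W w) : Ent ι W (up ι w) := fun k i => by
  by_cases e : k = i
  · rwa [e, h.en_up_same]
  · rw [h.en_up_ne _ e]; exact cm_zero

theorem ent_one : Ent ι W 1 := h.ent_iff.2 cm_one

/-- operators in one slot -/
theorem ent_slot (hw : Cm W w) (a b : ℕ) : Ent ι W (ι a ∘L w ∘L adjoint (ι b)) := fun k i => by
  by_cases e : k = a
  · by_cases e' : b = i
    · have : en ι (ι a ∘L w ∘L adjoint (ι b)) k i = w := ContinuousLinearMap.ext fun ξ => by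
        rw [en_ap, comp_apply, comp_apply, e, e', h.same, h.same]
      rwa [this]
    · have : en ι (ι a ∘L w ∘L adjoint (ι b)) k i = 0 := ContinuousLinearMap.ext fun ξ => by
        rw [en_ap, comp_apply, comp_apply, h.orth b i e', map_zero, map_zero, map_zero]; rfl
      rw [this]; exact cm_zero
  · have : en ι (ι a ∘L w ∘L adjoint (ι b)) k i = 0 := ContinuousLinearMap.ext fun ξ => by
      rw [en_ap, comp_apply, h.orth k a e]; rfl
    rw [this]; exact cm_zero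

/-- the finite projections -/
theorem norm_fin (s : Finset ℕ) : ‖∑ k ∈ s, ι k ∘L adjoint (ι k)‖ ≤ 1 := by
  refine opNorm_le_bound _ zero_le_one fun ξ => ?_
  rw [one_mul, ← sq_le_sq₀ (norm_nonneg _) (norm_nonneg _), ContinuousLinearMap.sum_apply]
  have h1 : ∀ i, adjoint (ι i) (∑ k ∈ s, (ι k ∘L adjoint (ι k)) ξ) =
      if i ∈ s then adjoint (ι i) ξ else 0 := fun i => by
    rw [_root_.map_sum]
    split_ifs with hi
    · exact (Finset.sum_eq_single i (fun k _ hk => h.orth i k (Ne.symm hk) _)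
        fun e => (e hi).elim).trans (h.same i _)
    · exact Finset.sum_eq_zero fun k hk => h.orth i k (fun e => hi (e ▸ hk)) _
  refine hasSum_le (fun i => ?_) (h.hasSum_sq _) (h.hasSum_sq ξ)
  rw [h1]
  split_ifs
  · exact le_rfl
  · simp

theorem norm_le_of_fin {c : ℝ} (hc : 0 ≤ c)
    (e : ∀ s : Finset ℕ, ‖(∑ k ∈ s, ι k ∘L adjoint (ι k)) * T‖ ≤ c) : ‖T‖ ≤ c := by
  refine opNorm_le_bound _ hc fun ξ => ?_
  refine le_of_tendsto' (h.sum (T ξ)).norm fun s => ?_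
  have := ((∑ k ∈ s, ι k ∘L adjoint (ι k)) * T).le_of_opNorm_le (e s) ξ
  rwa [mul_ap, ContinuousLinearMap.sum_apply] at this

end Sl

end Vale.Agent.P092IN
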