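import Vale.Agent.P092IN.Hs
import Vale.Agent.P092LG.PP

/-!
P092 (helper76), block PAIR: the ping-pong estimate for Hilbert-Schmidt operators.
-/

set_option linter.all false

open scoped InnerProductSpace ENNReal NNReal
open MeasureTheory Filter Topology ContinuousLinearMap

namespace Vale.Agent.P092IN

open Vale.Agent.P092.RC (Cm)
open Vale.Agent.P092CP
open Vale.Agent.P092LG (PP OrP)

variable {G G' K 𝒦 : Type} [Group G] [TopologicalSpace G] [IsTopologicalGroup G]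
  [LocallyCompactSpace G] [SecondCountableTopology G] [T2Space G] [MeasurableSpace G] [BorelSpace G]
  [Group G'] [TopologicalSpace G'] [IsTopologicalGroup G'] [LocallyCompactSpace G']
  [SecondCountableTopology G'] [T2Space G'] [MeasurableSpace G'] [BorelSpace G']
  [NormedAddCommGroup K] [InnerProductSpace ℂ K] [CompleteSpace K] {μ : Measure G}
  [μ.IsHaarMeasure] {μ' : Measure G'} [μ'.IsHaarMeasure] {W : Set (K →L[ℂ] K)}
  [NormedAddCommGroup 𝒦] [InnerProductSpace ℂ 𝒦] [CompleteSpace 𝒦]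

section iso

variable {j : K →L[ℂ] 𝒦} (hj : ∀ ξ, adjoint j (j ξ) = ξ)
include hj

theorem norm_iso (ξ : K) : ‖j ξ‖ = ‖ξ‖ := by
  rw [norm_eq_sqrt_re_inner (𝕜 := ℂ), ← adjoint_inner_right, hj, ← norm_eq_sqrt_re_inner]

theorem norm_adj_iso (ξ : 𝒦) : ‖adjoint j ξ‖ ≤ ‖ξ‖ := by
  have h1 : ‖adjoint j‖ ≤ 1 := by
    rw [LinearIsometryEquiv.norm_map]
    exact opNorm_le_bound _ zero_le_one fun η => by rw [norm_iso hj, one_mul]
  simpa using (adjoint j).le_of_opNorm_le h1 ξ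

theorem norm_cj {w : K →L[ℂ] K} (hw : ‖w‖ ≤ 1) : ‖j ∘L w ∘L adjoint j‖ ≤ 1 :=
  opNorm_le_bound _ zero_le_one fun ξ => by
    rw [comp_apply, comp_apply, norm_iso hj]
    exact (w.le_of_opNorm_le hw _).trans (by rw [one_mul, one_mul]; exact norm_adj_iso hj ξ)

theorem cj_mul (w w' : K →L[ℂ] K) :
    (j ∘L w ∘L adjoint j) * (j ∘L w' ∘L adjoint j) = j ∘L (w * w') ∘L adjoint j :=
  ContinuousLinearMap.ext fun ξ => by simp only [mul_ap, comp_apply, hj]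

theorem sum_cj {I : Type} [Fintype I] {P : I → K →L[ℂ] K} (hP : OrP P) (ξ : 𝒦) :
    ∑ l, ‖(j ∘L P l ∘L adjoint j) ξ‖ ^ 2 ≤ ‖ξ‖ ^ 2 := by
  simp only [comp_apply, norm_iso hj]
  exact (hP.sum_sq_le _).trans (pow_le_pow_left₀ (norm_nonneg _) (norm_adj_iso hj ξ) 2)

end iso

theorem polar {E F : Type*} [NormedAddCommGroup E] [InnerProductSpace ℂ E] [NormedAddCommGroup F]
    [InnerProductSpace ℂ F] {u v : E} {u' v' : F} (h : ∀ c : ℂ, ‖u' + c • v'‖ = ‖u + c • v‖) :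
    ⟪u', v'⟫_ℂ = ⟪u, v⟫_ℂ := by
  have h1 := h 1
  have h2 := h (-1)
  have h3 := h Complex.I
  have h4 := h (-Complex.I)
  simp only [one_smul, neg_smul, ← sub_eq_add_neg] at h1 h2 h3 h4
  rw [inner_eq_sum_norm_sq_div_four, inner_eq_sum_norm_sq_div_four]
  simp only [RCLike.I_to_complex, h1, h2, h3, h4]

theorem adj_cj (j : K →L[ℂ] 𝒦) (w : K →L[ℂ] K) :
    adjoint (j ∘L w ∘L adjoint j) = j ∘L adjoint w ∘L adjoint j := by
  simp only [adjoint_comp, adjoint_adjoint, comp_assoc]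

theorem orP_P (S : Side μ W) {p : ℕ} {B : Fin p → Set G} (hB : ∀ l, MeasurableSet (B l))
    (hd : ∀ l l', l ≠ l' → Disjoint (B l) (B l')) : OrP fun l => S.P (B l) :=
  ⟨fun l => S.adjoint_P (hB l), fun l => S.P_sq (hB l), fun l l' h => by
    rw [S.P_mul (hB l) (hB l'), (hd l l' h).inter_eq, S.P_empty]⟩

theorem sum_le_sqrt {p : ℕ} {a : Fin p → ℝ} {b : ℝ} (hb : 0 ≤ b) (h : ∑ l, a l ^ 2 ≤ b ^ 2) :
    ∑ l, a l ≤ √(p : ℝ) * b := by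
  refine (le_abs_self _).trans (abs_le_of_sq_le_sq ?_ (by positivity))
  rw [mul_pow, Real.sq_sqrt (by positivity)]
  refine sq_sum_le_card_mul_sum_sq.trans ?_
  rw [Finset.card_univ, Fintype.card_fin]
  exact mul_le_mul_of_nonneg_left h (by positivity)

variable {C : Cpl μ μ' W} {ι : ℕ → K →L[ℂ] 𝒦} {T T' : 𝒦 →L[ℂ] 𝒦}

/-- **The ping-pong estimate.** -/
theorem Sl.est (h : Sl ι) {j : K →L[ℂ] 𝒦} (hj : ∀ ξ, adjoint j (j ξ) = ξ)
    (hE : ∀ w, Cm W w → Ent ι W (j ∘L w ∘L adjoint j)) {p : ℕ} {s : Fin p → G} (hs : PP s)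
    {c : Fin p → 𝒦 →L[ℂ] 𝒦} (hc : ∀ l, Ent ι W (c l)) (hc1 : ∀ l, ‖c l‖ ≤ 1) (hT : Ent ι W T)
    (h0 : tr C.t ι T ≠ ∞) (h0' : tr C.t ι T' ≠ ∞) :
    ∑ l, ‖⟪Φ C.t ι (T * c l), Φ C.t ι ((j ∘L C.s.π (s l) ∘L adjoint j) * T')⟫_ℂ‖ ≤
      2 * √(p : ℝ) * (‖Φ C.t ι T‖ * ‖Φ C.t ι T'‖) := by
  obtain ⟨Bm, Bp, h1, h2, h3, h4, h5⟩ := hs
  set Qm : Fin p → 𝒦 →L[ℂ] 𝒦 := fun l => j ∘L C.s.P (Bm l) ∘L adjoint j with hQm
  set Qp : Fin p → 𝒦 →L[ℂ] 𝒦 := fun l => j ∘L C.s.P (Bp l) ∘L adjoint j with hQp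
  have hm := sum_le_sqrt (norm_nonneg _) (sum_sq_le (sum_cj hj (orP_P C.s h1 h3)) h0')
  have hp := sum_le_sqrt (norm_nonneg _) (sum_sq_le (sum_cj hj (orP_P C.s h2 h4)) h0)
  have key : ∀ l, ‖⟪Φ C.t ι (T * c l), Φ C.t ι ((j ∘L C.s.π (s l) ∘L adjoint j) * T')⟫_ℂ‖ ≤
      ‖Φ C.t ι T‖ * ‖Φ C.t ι (Qm l * T')‖ + ‖Φ C.t ι (Qp l * T)‖ * ‖Φ C.t ι T'‖ := fun l => by
    have e1 : C.s.π (s l) = C.s.π (s l) * C.s.P (Bm l) +
        C.s.P (Bp l) * (C.s.π (s l) * C.s.P (Bm l)ᶜ) := by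
      rw [C.s.π_P (h1 l).compl, ← mul_assoc,
        C.s.P_mul (h2 l) (measurable_const_mul _ (h1 l).compl), Set.inter_eq_right.2,
        ← C.s.π_P (h1 l).compl, ← mul_add, C.s.P_compl (h1 l), add_sub_cancel, mul_one]
      intro x hx
      simpa using h5 l _ hx
    have e2 : (j ∘L C.s.π (s l) ∘L adjoint j) * T' =
        (j ∘L C.s.π (s l) ∘L adjoint j) * (Qm l * T') +
        Qp l * ((j ∘L (C.s.π (s l) * C.s.P (Bm l)ᶜ) ∘L adjoint j) * T') := by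
      rw [← mul_assoc, ← mul_assoc, ← add_mul, hQm, hQp, cj_mul hj, cj_mul hj, ← comp_add,
        ← add_comp, ← e1]
    have f1 := h.tr_mul_ne' hT (hc l) h0
    have hq : Ent ι W (Qp l * T) := h.ent_mul (hE _ (C.s.cm_P (h2 l))) hT
    have a1 : adjoint (Qp l) = Qp l := by rw [hQp, adj_cj, C.s.adjoint_P (h2 l)]
    rw [e2, Φ_add (tr_mul_ne _ (tr_mul_ne _ h0')) (tr_mul_ne _ (tr_mul_ne _ h0')), inner_add_right,
      ← inner_L (Qp l) f1 (tr_mul_ne _ h0'), a1, ← mul_assoc (Qp l)]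
    refine (norm_add_le _ _).trans (add_le_add ((norm_inner_le_norm _ _).trans ?_)
      ((norm_inner_le_norm _ _).trans ?_))
    · refine mul_le_mul ((h.norm_Φ_mul' hT (hc l) h0).trans ?_)
        ((norm_Φ_mul _ (tr_mul_ne _ h0')).trans ?_) (norm_nonneg _) (norm_nonneg _)
      · exact mul_le_of_le_one_left (norm_nonneg _) (hc1 l)
      · exact mul_le_of_le_one_left (norm_nonneg _) (norm_cj hj (C.s.norm_π_le _))
    · refine mul_le_mul ((h.norm_Φ_mul' hq (hc l) (tr_mul_ne _ h0)).trans ?_)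
        ((norm_Φ_mul _ h0').trans ?_) (norm_nonneg _) (norm_nonneg _)
      · exact mul_le_of_le_one_left (norm_nonneg _) (hc1 l)
      · refine mul_le_of_le_one_left (norm_nonneg _) (norm_cj hj ((norm_mul_le _ _).trans ?_))
        exact mul_le_one₀ (C.s.norm_π_le _) (norm_nonneg _) (C.s.norm_P_le (h1 l).compl)
  refine (Finset.sum_le_sum fun l _ => key l).trans ?_
  rw [Finset.sum_add_distrib, ← Finset.mul_sum, ← Finset.sum_mul]
  have a1 := mul_le_mul_of_nonneg_left hm (norm_nonneg (Φ C.t ι T))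
  have a2 := mul_le_mul_of_nonneg_right hp (norm_nonneg (Φ C.t ι T'))
  exact (add_le_add a1 a2).trans_eq (by ring)

/-- inner products of the elementary operators -/
theorem Sl.inner_P (h : Sl ι) {H : Type} [NormedAddCommGroup H] [InnerProductSpace ℂ H]
    [CompleteSpace H] {D : Submodule ℂ (𝒦 →L[ℂ] 𝒦)} {v : (𝒦 →L[ℂ] 𝒦) → H} (hv : Gns D v)
    (hM : ∀ a ∈ D, ∀ k i, C.t.M (en ι a k i))
    (hn : ∀ a ∈ D, ‖v a‖ₑ ^ 2 = ∑' i, ‖a (ι i C.t.Ω)‖ₑ ^ 2) {a b : 𝒦 →L[ℂ] 𝒦} (ha : a ∈ D)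
    (hb : b ∈ D) {A B : Set G'} (hA : MeasurableSet A) (hB : MeasurableSet B) (hA' : μ' A ≠ ∞)
    (hB' : μ' B ≠ ∞) :
    ⟪Φ C.t ι (a * up ι (C.t.P A)), Φ C.t ι (b * up ι (C.t.P B))⟫_ℂ =
      (μ'.real (A ∩ B) : ℂ) * ⟪v a, v b⟫_ℂ := by
  have fin : ∀ a ∈ D, ∀ A, MeasurableSet A → μ' A ≠ ∞ → tr C.t ι (a * up ι (C.t.P A)) ≠ ∞ :=
    fun a ha A hA hA' => by rw [h.tr_mul_P (hM a ha) hA, ← hn a ha]; finiteness
  have ent : ∀ A, MeasurableSet A → Ent ι W (up ι (C.t.P A)) := fun A hA => h.ent_up (C.t.cm_P hA)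
  have ent' : ∀ a ∈ D, ∀ A, MeasurableSet A → Ent ι W (a * up ι (C.t.P A)) := fun a ha A hA =>
    h.ent_mul (fun k i => (hM a ha k i).1) (ent A hA)
  have hAB := hA.inter hB
  have hAB' : μ' (A ∩ B) ≠ ∞ := ne_top_of_le_ne_top hA' (measure_mono Set.inter_subset_left)
  have mv : ∀ A B E, MeasurableSet A → MeasurableSet B → MeasurableSet E → μ' A ≠ ∞ → μ' B ≠ ∞ →
      ⟪Φ C.t ι (a * up ι (C.t.P (A ∩ E))), Φ C.t ι (b * up ι (C.t.P B))⟫_ℂ =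
      ⟪Φ C.t ι (a * up ι (C.t.P A)), Φ C.t ι (b * up ι (C.t.P (B ∩ E)))⟫_ℂ :=
    fun A B E hA hB hE hA' hB' => by
      have := h.inner_R (ent' a ha A hA) (ent' b hb B hB) (ent E hE) (fin a ha A hA hA')
        (fin b hb B hB hB')
      rwa [h.adj_up, C.t.adjoint_P hE, mul_assoc, mul_assoc, ← h.up_mul, ← h.up_mul,
        C.t.P_mul hA hE, C.t.P_mul hB hE] at this
  have e1 : ⟪Φ C.t ι (a * up ι (C.t.P A)), Φ C.t ι (b * up ι (C.t.P B))⟫_ℂ =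
      ⟪Φ C.t ι (a * up ι (C.t.P (A ∩ B))), Φ C.t ι (b * up ι (C.t.P (A ∩ B)))⟫_ℂ := by
    have a1 := mv A B B hA hB hB hA' hB'
    have a2 := mv (A ∩ B) B A hAB hB hA hAB' hB'
    rw [Set.inter_self] at a1
    rw [Set.inter_comm B A, Set.inter_eq_left.2 Set.inter_subset_left] at a2
    rw [← a1, a2]
  rw [e1]
  have e2 : ∀ d ∈ D, ‖Φ C.t ι (d * up ι (C.t.P (A ∩ B)))‖ = ‖((√(μ'.real (A ∩ B)) : ℝ) : ℂ) • v d‖ :=
    fun d hd => norm_of_enorm_sq (by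
      rw [enorm_Φ (fin d hd _ hAB hAB'), h.tr_mul_P (hM d hd) hAB, ← hn d hd, enorm_smul, mul_pow,
        ← ofReal_norm ((√(μ'.real (A ∩ B)) : ℝ) : ℂ), Complex.norm_real,
        ← ENNReal.ofReal_pow (norm_nonneg _), Real.norm_eq_abs, sq_abs,
        Real.sq_sqrt measureReal_nonneg, ofReal_measureReal hAB'])
  have e3 : ⟪Φ C.t ι (a * up ι (C.t.P (A ∩ B))), Φ C.t ι (b * up ι (C.t.P (A ∩ B)))⟫_ℂ =
      ⟪((√(μ'.real (A ∩ B)) : ℝ) : ℂ) • v a, ((√(μ'.real (A ∩ B)) : ℝ) : ℂ) • v b⟫_ℂ :=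
    polar fun z => by
      rw [← Φ_smul _ (fin b hb _ hAB hAB'), ← Φ_add (fin a ha _ hAB hAB')
        (tr_smul_ne _ (fin b hb _ hAB hAB')), ← smul_mul_assoc, ← add_mul,
        e2 _ (D.add_mem ha (D.smul_mem z hb)), hv.add _ ha _ (D.smul_mem z hb), hv.smul _ _ hb,
        smul_add, smul_comm]
  rw [e3, inner_smul_left, inner_smul_right, Complex.conj_ofReal, ← mul_assoc, ← Complex.ofReal_mul,
    Real.mul_self_sqrt measureReal_nonneg]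

end Vale.Agent.P092IN
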