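import Vale.Agent.P092IN.Slot

/-!
P092 (helper76), block PAIR: the Hilbert-Schmidt ideal of the amplified semifinite algebra.
-/

set_option linter.all false

open scoped InnerProductSpace ENNReal NNReal
open MeasureTheory Filter Topology ContinuousLinearMap

namespace Vale.Agent.P092IN

open Vale.Agent.P092.RC (Cm)
open Vale.Agent.P092CP

variable {G G' K 𝒦 : Type} [Group G] [TopologicalSpace G] [IsTopologicalGroup G]
  [LocallyCompactSpace G] [SecondCountableTopology G] [T2Space G] [MeasurableSpace G] [BorelSpace G]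
  [Group G'] [TopologicalSpace G'] [IsTopologicalGroup G'] [LocallyCompactSpace G']
  [SecondCountableTopology G'] [T2Space G'] [MeasurableSpace G'] [BorelSpace G']
  [NormedAddCommGroup K] [InnerProductSpace ℂ K] [CompleteSpace K] {μ : Measure G}
  [μ.IsHaarMeasure] {μ' : Measure G'} [μ'.IsHaarMeasure] {W : Set (K →L[ℂ] K)}
  [NormedAddCommGroup 𝒦] [InnerProductSpace ℂ 𝒦] [CompleteSpace 𝒦]

section side

variable (S : Side μ' W) (ι : ℕ → K →L[ℂ] 𝒦)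

/-- the vectors which compute the trace -/
noncomputable def φ (z : ℕ × G') : 𝒦 := ι z.1 (S.π z.2 S.Ω)

/-- `Tr (T* T)` -/
noncomputable def tr (T : 𝒦 →L[ℂ] 𝒦) : ℝ≥0∞ := ∫⁻ z, ‖T (φ S ι z)‖ₑ ^ 2 ∂(Measure.count.prod μ')

open Classical in
/-- the vector of an operator -/
noncomputable def Φ (T : 𝒦 →L[ℂ] 𝒦) : Lp 𝒦 2 ((Measure.count : Measure ℕ).prod μ') :=
  if h : MemLp (fun z => T (φ S ι z)) 2 (Measure.count.prod μ') then h.toLp _ else 0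

theorem cont_φ : Continuous (φ S ι) :=
  continuous_prod_of_discrete_left.2 fun i => (ι i).continuous.comp (S.cont S.Ω)

theorem meas_φ (T : 𝒦 →L[ℂ] 𝒦) : Measurable fun z => ‖T (φ S ι z)‖ₑ ^ 2 :=
  (T.continuous.comp (cont_φ S ι)).enorm.measurable.pow_const 2

variable {S ι} {T T' a : 𝒦 →L[ℂ] 𝒦}

theorem Φ_ae (h : tr S ι T ≠ ∞) : ⇑(Φ S ι T) =ᵐ[Measure.count.prod μ'] fun z => T (φ S ι z) := by
  have h2 : MemLp (fun z => T (φ S ι z)) 2 (Measure.count.prod μ') :=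
    memLp_of_sq (T.continuous.comp (cont_φ S ι)).aestronglyMeasurable h
  rw [Φ, dif_pos h2]
  exact h2.coeFn_toLp

theorem enorm_Φ (h : tr S ι T ≠ ∞) : ‖Φ S ι T‖ₑ ^ 2 = tr S ι T := enorm_of_ae (Φ_ae h)

theorem tr_mul_le (a T : 𝒦 →L[ℂ] 𝒦) : tr S ι (a * T) ≤ ‖a‖ₑ ^ 2 * tr S ι T := by
  rw [tr, tr, ← lintegral_const_mul _ (meas_φ S ι T)]
  exact lintegral_mono fun g => by
    rw [← mul_pow]; exact pow_le_pow_left' (a.le_opENorm _) 2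

theorem tr_mul_ne (a : 𝒦 →L[ℂ] 𝒦) (h : tr S ι T ≠ ∞) : tr S ι (a * T) ≠ ∞ :=
  ne_top_of_le_ne_top (by finiteness) (tr_mul_le a T)

theorem tr_add_ne (h : tr S ι T ≠ ∞) (h' : tr S ι T' ≠ ∞) : tr S ι (T + T') ≠ ∞ := by
  refine ne_top_of_le_ne_top (b := 2 * tr S ι T + 2 * tr S ι T') (by finiteness) ?_
  rw [tr, tr, tr, ← lintegral_const_mul _ (meas_φ S ι T), ← lintegral_const_mul _ (meas_φ S ι T'),
    ← lintegral_add_left ((meas_φ S ι T).const_mul _)]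
  exact lintegral_mono fun z => enorm_add_sq_le _ _

theorem tr_smul_ne (c : ℂ) (h : tr S ι T ≠ ∞) : tr S ι (c • T) ≠ ∞ := by
  rw [← smul_one_mul]; exact tr_mul_ne _ h

theorem tr_zero : tr S ι 0 = 0 := by simp [tr]

theorem Φ_add (h : tr S ι T ≠ ∞) (h' : tr S ι T' ≠ ∞) : Φ S ι (T + T') = Φ S ι T + Φ S ι T' :=
  Lp.ext <| by
    filter_upwards [Φ_ae (tr_add_ne h h'), Φ_ae h, Φ_ae h', Lp.coeFn_add (Φ S ι T) (Φ S ι T')]
      with g h1 h2 h3 h4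
    rw [h1, h4, Pi.add_apply, h2, h3]; rfl

theorem Φ_smul (c : ℂ) (h : tr S ι T ≠ ∞) : Φ S ι (c • T) = c • Φ S ι T :=
  Lp.ext <| by
    filter_upwards [Φ_ae (tr_smul_ne c h), Φ_ae h, Lp.coeFn_smul c (Φ S ι T)] with g h1 h2 h3
    rw [h1, h3, Pi.smul_apply, h2]; rfl

theorem inner_Φ (h : tr S ι T ≠ ∞) (h' : tr S ι T' ≠ ∞) :
    ⟪Φ S ι T, Φ S ι T'⟫_ℂ = ∫ z, ⟪T (φ S ι z), T' (φ S ι z)⟫_ℂ ∂(Measure.count.prod μ') := by
  rw [L2.inner_def]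
  refine integral_congr_ae ?_
  filter_upwards [Φ_ae h, Φ_ae h'] with g h1 h2
  rw [h1, h2]

theorem inner_L (a : 𝒦 →L[ℂ] 𝒦) (h : tr S ι T ≠ ∞) (h' : tr S ι T' ≠ ∞) :
    ⟪Φ S ι (adjoint a * T), Φ S ι T'⟫_ℂ = ⟪Φ S ι T, Φ S ι (a * T')⟫_ℂ := by
  rw [inner_Φ (tr_mul_ne _ h) h', inner_Φ h (tr_mul_ne _ h')]
  simp only [mul_ap, adjoint_inner_left]

theorem norm_Φ_mul (a : 𝒦 →L[ℂ] 𝒦) (h : tr S ι T ≠ ∞) : ‖Φ S ι (a * T)‖ ≤ ‖a‖ * ‖Φ S ι T‖ :=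
  norm_le_of_enorm_sq (norm_nonneg _) (by
    rw [enorm_Φ h, enorm_Φ (tr_mul_ne a h), ofReal_norm]; exact tr_mul_le a T)

theorem tr_fix {U : 𝒦 →L[ℂ] 𝒦} (e : ∀ z, U (φ S ι z) = φ S ι z) (T : 𝒦 →L[ℂ] 𝒦) :
    tr S ι (T * U) = tr S ι T := by simp only [tr, mul_ap, e]

theorem Φ_fix {U : 𝒦 →L[ℂ] 𝒦} (e : ∀ z, U (φ S ι z) = φ S ι z) (h : tr S ι T ≠ ∞) :
    Φ S ι (T * U) = Φ S ι T := Lp.ext <| by
  filter_upwards [Φ_ae ((tr_fix e T).trans_ne h), Φ_ae h] with z h1 h2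
  rw [h1, h2, mul_ap, e]

theorem Sl.tr_eq (h : Sl ι) (T : 𝒦 →L[ℂ] 𝒦) : tr S ι T = ∑' i, ∑' k, S.Tr (en ι T k i) := by
  rw [tr, lintegral_prod _ (meas_φ S ι T).aemeasurable, lintegral_count]
  refine tsum_congr fun i => ?_
  simp only [Side.Tr]
  rw [← lintegral_tsum fun k => (S.meas_π _ _).aemeasurable]
  exact lintegral_congr fun x => h.enorm_sq _

/-- orthogonal projections acting on the left -/
theorem sum_sq_le {I : Type} [Fintype I] {Q : I → 𝒦 →L[ℂ] 𝒦}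
    (hQ : ∀ ξ, ∑ l, ‖Q l ξ‖ ^ 2 ≤ ‖ξ‖ ^ 2) (h : tr S ι T ≠ ∞) :
    ∑ l, ‖Φ S ι (Q l * T)‖ ^ 2 ≤ ‖Φ S ι T‖ ^ 2 := by
  have e : ∀ {E : Type} [NormedAddCommGroup E] (x : E), ENNReal.ofReal (‖x‖ ^ 2) = ‖x‖ₑ ^ 2 :=
    fun x => by rw [ENNReal.ofReal_pow (norm_nonneg _), ofReal_norm]
  rw [← ENNReal.ofReal_le_ofReal_iff (sq_nonneg _),
    ENNReal.ofReal_sum_of_nonneg fun _ _ => sq_nonneg _]
  simp only [e, enorm_Φ h, enorm_Φ (tr_mul_ne _ h), tr]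
  rw [← lintegral_finsetSum _ fun l _ => meas_φ S ι _]
  refine lintegral_mono fun z => ?_
  have := ENNReal.ofReal_le_ofReal (hQ (T (φ S ι z)))
  rw [ENNReal.ofReal_sum_of_nonneg fun _ _ => sq_nonneg _] at this
  simp only [e] at this
  exact this

end side

variable {C : Cpl μ μ' W} {ι : ℕ → K →L[ℂ] 𝒦} {T T' a b c : 𝒦 →L[ℂ] 𝒦}

namespace Sl

variable (h : Sl ι)
include h

theorem tr_adj (hT : Ent ι W T) : tr C.t ι (adjoint T) = tr C.t ι T := by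
  rw [h.tr_eq, h.tr_eq, ENNReal.tsum_comm]
  exact tsum_congr fun i => tsum_congr fun k => by rw [en_adj, C.tr_adj _ (hT _ _)]

theorem tr_mul_le' (hT : Ent ι W T) (hc : Ent ι W c) :
    tr C.t ι (T * c) ≤ ‖c‖ₑ ^ 2 * tr C.t ι T := by
  rw [← h.tr_adj (h.ent_mul hT hc), adj_mul, ← h.tr_adj hT, ← enorm_star' c]
  exact tr_mul_le _ _

theorem tr_mul_ne' (hT : Ent ι W T) (hc : Ent ι W c) (h0 : tr C.t ι T ≠ ∞) :
    tr C.t ι (T * c) ≠ ∞ := ne_top_of_le_ne_top (by finiteness) (h.tr_mul_le' hT hc)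

theorem norm_Φ_mul' (hT : Ent ι W T) (hc : Ent ι W c) (h0 : tr C.t ι T ≠ ∞) :
    ‖Φ C.t ι (T * c)‖ ≤ ‖c‖ * ‖Φ C.t ι T‖ :=
  norm_le_of_enorm_sq (norm_nonneg _) (by
    rw [enorm_Φ h0, enorm_Φ (h.tr_mul_ne' hT hc h0), ofReal_norm]; exact h.tr_mul_le' hT hc)

theorem inner_adj (hT : Ent ι W T) (hT' : Ent ι W T') (h0 : tr C.t ι T ≠ ∞)
    (h0' : tr C.t ι T' ≠ ∞) :
    ⟪Φ C.t ι (adjoint T), Φ C.t ι (adjoint T')⟫_ℂ = ⟪Φ C.t ι T', Φ C.t ι T⟫_ℂ := by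
  have h1 := (h.tr_adj (C := C) hT).trans_ne h0
  have h2 := (h.tr_adj (C := C) hT').trans_ne h0'
  refine inner_of_anti fun z => norm_of_enorm_sq ?_
  rw [← Φ_smul _ h2, ← Φ_add h1 (tr_smul_ne _ h2), ← Φ_smul _ h0', ← Φ_add h0 (tr_smul_ne _ h0'),
    enorm_Φ (tr_add_ne h1 (tr_smul_ne _ h2)), enorm_Φ (tr_add_ne h0 (tr_smul_ne _ h0')),
    ← h.tr_adj (hT.add (hT'.smul z)), map_add, map_smulₛₗ]
  rfl

theorem inner_R (hT : Ent ι W T) (hT' : Ent ι W T') (hc : Ent ι W c) (h0 : tr C.t ι T ≠ ∞)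
    (h0' : tr C.t ι T' ≠ ∞) :
    ⟪Φ C.t ι (T * adjoint c), Φ C.t ι T'⟫_ℂ = ⟪Φ C.t ι T, Φ C.t ι (T' * c)⟫_ℂ := by
  have hc' := hc.adj C.Wadj
  rw [← h.inner_adj hT' (h.ent_mul hT hc') h0' (h.tr_mul_ne' hT hc' h0),
    ← h.inner_adj (h.ent_mul hT' hc) hT (h.tr_mul_ne' hT' hc h0') h0, adj_mul, adj_mul,
    adjoint_adjoint, inner_L _ ((h.tr_adj hT').trans_ne h0') ((h.tr_adj hT).trans_ne h0)]

/-- the trace of `a m(1_A)` -/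
theorem tr_mul_P (ha : ∀ k i, C.t.M (en ι a k i)) {A : Set G'} (hA : MeasurableSet A) :
    tr C.t ι (a * up ι (C.t.P A)) = μ' A * ∑' i, ‖a (ι i C.t.Ω)‖ₑ ^ 2 := by
  rw [h.tr_eq, ← ENNReal.tsum_mul_left]
  refine tsum_congr fun i => ?_
  rw [h.enorm_sq, ← ENNReal.tsum_mul_left]
  refine tsum_congr fun k => ?_
  rw [h.en_mul_up, Side.P, C.Tr_mul_m' (ha k i) (Bd.ind hA), en_ap]
  congr 1
  rw [← lintegral_indicator_one hA]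
  exact lintegral_congr fun y => by by_cases e : y ∈ A <;> simp [e]

end Sl

end Vale.Agent.P092IN
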