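import Vale.Agent.P092IN.Rel

/-!
P092 (helper76), block PAIR: the ping-pong inequality in `L²(G'; H)`.
-/

set_option linter.all false

open scoped InnerProductSpace ENNReal NNReal
open MeasureTheory Filter Topology ContinuousLinearMap

namespace Vale.Agent.P092IN

open Vale.Agent.P092.RC (Cm)
open Vale.Agent.P092CP
open Vale.Agent.P092LG (PP OrP)

variable {G G' K 𝒦 H : Type} [Group G] [TopologicalSpace G] [IsTopologicalGroup G]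
  [LocallyCompactSpace G] [SecondCountableTopology G] [T2Space G] [MeasurableSpace G] [BorelSpace G]
  [Group G'] [TopologicalSpace G'] [IsTopologicalGroup G'] [LocallyCompactSpace G']
  [SecondCountableTopology G'] [T2Space G'] [MeasurableSpace G'] [BorelSpace G']
  [NormedAddCommGroup K] [InnerProductSpace ℂ K] [CompleteSpace K] {μ : Measure G}
  [μ.IsHaarMeasure] {μ' : Measure G'} [μ'.IsHaarMeasure] {W : Set (K →L[ℂ] K)}
  [NormedAddCommGroup 𝒦] [InnerProductSpace ℂ 𝒦] [CompleteSpace 𝒦]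
  [NormedAddCommGroup H] [InnerProductSpace ℂ H] [CompleteSpace H]

theorem exists_cut {X : G' → H} (hX : Continuous X) {A L : Set G'} (hA : MeasurableSet A)
    (hL : IsCompact L) (hAL : A ⊆ L) {α : ℝ} (hα : 0 ≤ α) (h : ∫ x in A, ‖X x‖ ^ 2 ∂μ' ≤ α ^ 2) :
    ∃ Z : Lp H 2 μ', ⇑Z =ᵐ[μ'] A.indicator X ∧ ‖Z‖ ≤ α := by
  have h1 : IntegrableOn (fun x => ‖X x‖ ^ 2) A μ' :=
    ((hX.norm.pow 2).continuousOn.integrableOn_compact hL).mono_set hAL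
  have h2 : MemLp (A.indicator X) 2 μ' := by
    rw [memLp_indicator_iff_restrict hA, memLp_two_iff_integrable_sq_norm hX.aestronglyMeasurable]
    exact h1
  refine ⟨h2.toLp _, h2.coeFn_toLp, abs_le_of_sq_le_sq' (le_trans (le_of_eq ?_) h) hα |>.2⟩
  rw [← @inner_self_eq_norm_sq ℂ, L2.inner_def, ← integral_re (L2.integrable_inner _ _),
    ← integral_indicator hA]
  refine integral_congr_ae ?_
  filter_upwards [h2.coeFn_toLp] with x hx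
  rw [hx, inner_self_eq_norm_sq]
  by_cases a : x ∈ A <;> simp [a]

namespace Mod

variable {C : Cpl μ μ' W} {ι : ℕ → K →L[ℂ] 𝒦} {D : Submodule ℂ (𝒦 →L[ℂ] 𝒦)}
  {v : (𝒦 →L[ℂ] 𝒦) → H} (h : Mod C ι D v) {j : K →L[ℂ] 𝒦} (hj : ∀ ξ, adjoint j (j ξ) = ξ)
  (hE : ∀ w, Cm W w → Ent ι W (j ∘L w ∘L adjoint j)) {p : ℕ} {s : Fin p → G} (hs : PP s)
  {L : Fin p → H →L[ℂ] H} {U : Fin p → 𝒦 →L[ℂ] 𝒦}
  (hL : ∀ l, ∀ a ∈ D, (j ∘L C.s.π (s l) ∘L adjoint j) * a * U l ∈ D ∧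
    L l (v a) = v ((j ∘L C.s.π (s l) ∘L adjoint j) * a * U l))
  (hU : ∀ l A, MeasurableSet A → U l * up ι (C.t.P A) = up ι (C.t.P A) * U l)
  (hU' : ∀ l z, U l (φ C.t ι z) = φ C.t ι z) {I : Fin p → Type} [∀ l, Fintype (I l)]
  {deg : ∀ l, I l → C.t.Γ} {b : ∀ l, I l → H →L[ℂ] H} {c : ∀ l, I l → 𝒦 →L[ℂ] 𝒦}
  (hb : ∀ l i, ∀ a ∈ D, a * c l i ∈ D ∧ b l i (v a) = v (a * c l i))
  (hc : ∀ l i k k', C.t.Deg (deg l i) (en ι (c l i) k k')) (hc' : ∀ l i, Ent ι W (c l i))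
  (hc1 : ∀ l, ‖∑ i, c l i‖ ≤ 1)
include h hj hE hs hL hU hU' hb hc hc' hc1

theorem lp (X Y : Lp H 2 μ') :
    ∑ l, ‖⟪∑ i, (b l i).compLpL 2 μ' (sh C.t H (deg l i : G')⁻¹ X), (L l).compLpL 2 μ' Y⟫_ℂ‖ ≤
      2 * √(p : ℝ) * (‖X‖ * ‖Y‖) := by
  refine h.dense.induction (P := fun X => ∑ l, ‖⟪∑ i, (b l i).compLpL 2 μ'
    (sh C.t H (deg l i : G')⁻¹ X), (L l).compLpL 2 μ' Y⟫_ℂ‖ ≤ 2 * √(p : ℝ) * (‖X‖ * ‖Y‖)) ?_
    (isClosed_le (by fun_prop) (by fun_prop)) X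
  rintro _ ⟨z, hz, rfl⟩
  refine h.dense.induction (P := fun Y => ∑ l, ‖⟪∑ i, (b l i).compLpL 2 μ'
    (sh C.t H (deg l i : G')⁻¹ z.1), (L l).compLpL 2 μ' Y⟫_ℂ‖ ≤ 2 * √(p : ℝ) * (‖z.1‖ * ‖Y‖)) ?_
    (isClosed_le (by fun_prop) (by fun_prop)) Y
  rintro _ ⟨z', hz', rfl⟩
  rw [h.norm hz, h.norm hz']
  refine le_trans (le_of_eq (Finset.sum_congr rfl fun l _ => ?_))
    (h.sl.est hj hE hs (fun l => Ent.sum _ fun i _ => hc' l i) hc1 (h.good hz).1 (h.good hz).2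
      (h.good hz').2)
  have h1 := Submodule.sum_mem (Rel C ι D v) (t := Finset.univ)
    fun i _ => h.right (hb l i) (hc l i) hz
  have h2 := h.inner h1 (left (hL l) (hU l) hz')
  rw [Prod.fst_sum, Prod.snd_sum, ← Finset.mul_sum,
    Φ_fix (hU' l) (tr_mul_ne _ (h.good hz').2)] at h2
  rw [h2]

theorem int {X Y : G' → H} (hX : Continuous X) (hY : Continuous Y) {A A' L' : Set G'}
    (hA : MeasurableSet A) (hA' : MeasurableSet A') (hL' : IsCompact L') (h1 : A ⊆ L')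
    (h2 : A' ⊆ L') (h3 : ∀ x ∈ A, ∀ l i, x * (deg l i : G')⁻¹ ∈ A') {α β : ℝ} (hα : 0 ≤ α)
    (hβ : 0 ≤ β) (h4 : ∫ x in A', ‖X x‖ ^ 2 ∂μ' ≤ α ^ 2) (h5 : ∫ x in A, ‖Y x‖ ^ 2 ∂μ' ≤ β ^ 2) :
    ∑ l, ‖∫ x in A, ⟪∑ i, b l i (X (x * (deg l i : G')⁻¹)), L l (Y x)⟫_ℂ ∂μ'‖ ≤
      2 * √(p : ℝ) * (α * β) := by
  obtain ⟨Z, a1, a2⟩ := exists_cut hX hA' hL' h2 hα h4
  obtain ⟨Z', b1, b2⟩ := exists_cut hY hA hL' h1 hβ h5
  refine le_trans (le_of_eq (Finset.sum_congr rfl fun l _ => ?_))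
    ((h.lp hj hE hs hL hU hU' hb hc hc' hc1 Z Z').trans (by gcongr))
  rw [L2.inner_def, ← integral_indicator hA]
  refine congrArg _ (integral_congr_ae ?_)
  have e1 : ∀ᵐ x ∂μ', ∀ i, ((b l i).compLpL 2 μ' (sh C.t H (deg l i : G')⁻¹ Z)) x =
      b l i (A'.indicator X (x * (deg l i : G')⁻¹)) := by
    refine ae_all_iff.2 fun i => ?_
    filter_upwards [(b l i).coeFn_compLpL (sh C.t H (deg l i : G')⁻¹ Z),
      sh_ae C.t (deg l i : G')⁻¹ Z, ae_sh C.t (deg l i : G')⁻¹ a1] with x e1 e2 e3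
    rw [e1, e2, e3]
  filter_upwards [e1, (L l).coeFn_compLpL Z', b1, Lp.coeFn_finsetSum Finset.univ
    fun i => (b l i).compLpL 2 μ' (sh C.t H (deg l i : G')⁻¹ Z)] with x e1 e2 e3 e4
  rw [e2, e3, e4, Finset.sum_apply]
  by_cases a : x ∈ A
  · rw [Set.indicator_of_mem a, Set.indicator_of_mem a]
    exact congrArg (⟪·, _⟫_ℂ) (Finset.sum_congr rfl fun i _ => by
      rw [e1, Set.indicator_of_mem (h3 x a l i)])
  · rw [Set.indicator_of_notMem a, Set.indicator_of_notMem a, map_zero, inner_zero_right]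

end Mod

end Vale.Agent.P092IN
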