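import Vale.Agent.P092IN.Est

/-!
P092 (helper76), block PAIR: `L²(B, Tr) = L²(G'; H)` on simple functions.
-/

set_option linter.all false

open scoped InnerProductSpace ENNReal NNReal
open MeasureTheory Filter Topology ContinuousLinearMap

namespace Vale.Agent.P092IN

open Vale.Agent.P092.RC (Cm)
open Vale.Agent.P092CP
open Vale.Agent.P092LG (PP OrP)
open Vale.Agent.P092.H790 (koo koo_ae)

variable {G G' K 𝒦 H : Type} [Group G] [TopologicalSpace G] [IsTopologicalGroup G]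
  [LocallyCompactSpace G] [SecondCountableTopology G] [T2Space G] [MeasurableSpace G] [BorelSpace G]
  [Group G'] [TopologicalSpace G'] [IsTopologicalGroup G'] [LocallyCompactSpace G']
  [SecondCountableTopology G'] [T2Space G'] [MeasurableSpace G'] [BorelSpace G']
  [NormedAddCommGroup K] [InnerProductSpace ℂ K] [CompleteSpace K] {μ : Measure G}
  [μ.IsHaarMeasure] {μ' : Measure G'} [μ'.IsHaarMeasure] {W : Set (K →L[ℂ] K)}
  [NormedAddCommGroup 𝒦] [InnerProductSpace ℂ 𝒦] [CompleteSpace 𝒦]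
  [NormedAddCommGroup H] [InnerProductSpace ℂ H] [CompleteSpace H]

/-- `H` is `L²` of the amplified finite algebra -/
structure Mod (C : Cpl μ μ' W) (ι : ℕ → K →L[ℂ] 𝒦) (D : Submodule ℂ (𝒦 →L[ℂ] 𝒦))
    (v : (𝒦 →L[ℂ] 𝒦) → H) : Prop where
  sl : Sl ι
  gns : Gns D v
  mem : ∀ a ∈ D, ∀ k i, C.t.M (en ι a k i)
  nrm : ∀ a ∈ D, ‖v a‖ₑ ^ 2 = ∑' i, ‖a (ι i C.t.Ω)‖ₑ ^ 2

/-- simple functions and the corresponding operators -/
noncomputable def Rel (C : Cpl μ μ' W) (ι : ℕ → K →L[ℂ] 𝒦) (D : Submodule ℂ (𝒦 →L[ℂ] 𝒦))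
    (v : (𝒦 →L[ℂ] 𝒦) → H) : Submodule ℂ (Lp H 2 μ' × (𝒦 →L[ℂ] 𝒦)) :=
  Submodule.span ℂ {z | ∃ a ∈ D, ∃ (A : Set G') (hA : MeasurableSet A) (hA' : μ' A ≠ ∞),
    z = (indicatorConstLp 2 hA hA' (v a), a * up ι (C.t.P A))}

/-- right translation -/
noncomputable def sh (S : Side μ' W) (H : Type) [NormedAddCommGroup H] [InnerProductSpace ℂ H]
    (t : G') : Lp H 2 μ' →L[ℂ] Lp H 2 μ' :=
  koo (fun x => x * t) (haveI := S.right; measurePreserving_mul_right μ' t)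

theorem sh_ae (S : Side μ' W) (t : G') (X : Lp H 2 μ') : ⇑(sh S H t X) =ᵐ[μ'] fun x => X (x * t) :=
  koo_ae _ _ X

theorem ae_sh (S : Side μ' W) (t : G') {p : G' → Prop} (h : ∀ᵐ x ∂μ', p x) :
    ∀ᵐ x ∂μ', p (x * t) :=
  haveI := S.right
  (measurePreserving_mul_right μ' t).quasiMeasurePreserving.ae h

theorem inner_ind {A B : Set G'} (hA : MeasurableSet A) (hB : MeasurableSet B) (hA' : μ' A ≠ ∞)
    (hB' : μ' B ≠ ∞) (ξ η : H) :
    ⟪indicatorConstLp 2 hA hA' ξ, indicatorConstLp 2 hB hB' η⟫_ℂ =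
      (μ'.real (A ∩ B) : ℂ) * ⟪ξ, η⟫_ℂ := by
  rw [L2.inner_def, ← Complex.real_smul, ← integral_indicator_const _ (hA.inter hB)]
  refine integral_congr_ae ?_
  filter_upwards [indicatorConstLp_coeFn (p := 2) (hs := hA) (hμs := hA') (c := ξ),
    indicatorConstLp_coeFn (p := 2) (hs := hB) (hμs := hB') (c := η)] with x h1 h2
  rw [h1, h2]
  by_cases a : x ∈ A <;> by_cases b : x ∈ B <;> simp [a, b]

namespace Mod

variable {C : Cpl μ μ' W} {ι : ℕ → K →L[ℂ] 𝒦} {D : Submodule ℂ (𝒦 →L[ℂ] 𝒦)}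
  {v : (𝒦 →L[ℂ] 𝒦) → H} (h : Mod C ι D v) {z z' : Lp H 2 μ' × (𝒦 →L[ℂ] 𝒦)}
include h

theorem good (hz : z ∈ Rel C ι D v) : Ent ι W z.2 ∧ tr C.t ι z.2 ≠ ∞ := by
  induction hz using Submodule.span_induction with
  | mem z hz =>
    obtain ⟨a, ha, A, hA, hA', rfl⟩ := hz
    refine ⟨h.sl.ent_mul (fun k i => (h.mem a ha k i).1) (h.sl.ent_up (C.t.cm_P hA)), ?_⟩
    rw [h.sl.tr_mul_P (h.mem a ha) hA, ← h.nrm a ha]
    finiteness
  | zero => exact ⟨Ent.zero, tr_zero.trans_ne ENNReal.zero_ne_top⟩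
  | add x y _ _ a b => exact ⟨a.1.add b.1, tr_add_ne a.2 b.2⟩
  | smul c x _ a => exact ⟨a.1.smul c, tr_smul_ne c a.2⟩

theorem Φ_zero : Φ C.t ι 0 = 0 := by
  simpa using Φ_smul (S := C.t) (ι := ι) 0 (tr_zero.trans_ne ENNReal.zero_ne_top)

theorem inner (hz : z ∈ Rel C ι D v) (hz' : z' ∈ Rel C ι D v) :
    ⟪z.1, z'.1⟫_ℂ = ⟪Φ C.t ι z.2, Φ C.t ι z'.2⟫_ℂ := by
  induction hz using Submodule.span_induction with
  | mem z hz =>
    induction hz' using Submodule.span_induction with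
    | mem z' hz' =>
      obtain ⟨a, ha, A, hA, hA', rfl⟩ := hz
      obtain ⟨b, hb, B, hB, hB', rfl⟩ := hz'
      rw [inner_ind, h.sl.inner_P h.gns h.mem h.nrm ha hb hA hB hA' hB']
    | zero => rw [Prod.fst_zero, Prod.snd_zero, h.Φ_zero, inner_zero_right, inner_zero_right]
    | add x y hx hy a b =>
      rw [Prod.fst_add, Prod.snd_add, Φ_add (h.good hx).2 (h.good hy).2, inner_add_right,
        inner_add_right, a, b]
    | smul c x hx a =>
      rw [Prod.smul_fst, Prod.smul_snd, Φ_smul c (h.good hx).2, inner_smul_right, inner_smul_right,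
        a]
  | zero => rw [Prod.fst_zero, Prod.snd_zero, h.Φ_zero, inner_zero_left, inner_zero_left]
  | add x y hx hy a b =>
    rw [Prod.fst_add, Prod.snd_add, Φ_add (h.good hx).2 (h.good hy).2, inner_add_left,
      inner_add_left, a, b]
  | smul c x hx a =>
    rw [Prod.smul_fst, Prod.smul_snd, Φ_smul c (h.good hx).2, inner_smul_left, inner_smul_left, a]

theorem norm (hz : z ∈ Rel C ι D v) : ‖z.1‖ = ‖Φ C.t ι z.2‖ := by
  rw [norm_eq_sqrt_re_inner (𝕜 := ℂ), h.inner hz hz, ← norm_eq_sqrt_re_inner]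

omit h in
theorem map (f : Lp H 2 μ' →L[ℂ] Lp H 2 μ') (x y : 𝒦 →L[ℂ] 𝒦)
    (e : ∀ a ∈ D, ∀ (A : Set G') (hA : MeasurableSet A) (hA' : μ' A ≠ ∞),
      (f (indicatorConstLp 2 hA hA' (v a)), x * (a * up ι (C.t.P A)) * y) ∈ Rel C ι D v)
    (hz : z ∈ Rel C ι D v) : (f z.1, x * z.2 * y) ∈ Rel C ι D v := by
  induction hz using Submodule.span_induction with
  | mem z hz =>
    obtain ⟨a, ha, A, hA, hA', rfl⟩ := hz
    exact e a ha A hA hA'
  | zero =>
    rw [Prod.fst_zero, Prod.snd_zero, map_zero, mul_zero, zero_mul]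
    exact Submodule.zero_mem _
  | add x y hx hy a b =>
    rw [Prod.fst_add, Prod.snd_add, map_add, mul_add, add_mul]
    exact Submodule.add_mem _ a b
  | smul c x hx a =>
    rw [Prod.smul_fst, Prod.smul_snd, map_smul, mul_smul_comm, smul_mul_assoc]
    exact Submodule.smul_mem _ c a

omit h in
theorem comp_ind (L : H →L[ℂ] H) {A : Set G'} (hA : MeasurableSet A) (hA' : μ' A ≠ ∞) (ξ : H) :
    L.compLpL 2 μ' (indicatorConstLp 2 hA hA' ξ) = indicatorConstLp 2 hA hA' (L ξ) := by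
  refine Lp.ext ?_
  filter_upwards [L.coeFn_compLpL (indicatorConstLp 2 hA hA' ξ),
    indicatorConstLp_coeFn (p := 2) (hs := hA) (hμs := hA') (c := ξ),
    indicatorConstLp_coeFn (p := 2) (hs := hA) (hμs := hA') (c := L ξ)] with x h1 h2 h3
  rw [h1, h2, h3]
  by_cases a : x ∈ A <;> simp [a]

omit h in
theorem left {L : H →L[ℂ] H} {x U : 𝒦 →L[ℂ] 𝒦}
    (hL : ∀ a ∈ D, x * a * U ∈ D ∧ L (v a) = v (x * a * U))
    (hU : ∀ A, MeasurableSet A → U * up ι (C.t.P A) = up ι (C.t.P A) * U)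
    (hz : z ∈ Rel C ι D v) : (L.compLpL 2 μ' z.1, x * z.2 * U) ∈ Rel C ι D v :=
  map _ x U (fun a ha A hA hA' => Submodule.subset_span ⟨_, (hL a ha).1, A, hA, hA', by
    rw [comp_ind, (hL a ha).2, mul_assoc (x * a), hU A hA]
    simp only [mul_assoc]⟩) hz

theorem right {b : H →L[ℂ] H} {c : 𝒦 →L[ℂ] 𝒦} {t : C.t.Γ}
    (hb : ∀ a ∈ D, a * c ∈ D ∧ b (v a) = v (a * c)) (hc : ∀ k i, C.t.Deg t (en ι c k i))
    (hz : z ∈ Rel C ι D v) :
    (b.compLpL 2 μ' (sh C.t H (t : G')⁻¹ z.1), z.2 * c) ∈ Rel C ι D v := by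
  have := map (b.compLpL 2 μ' ∘L sh C.t H (t : G')⁻¹) 1 c (fun a ha A hA hA' => ?_) hz
  · rwa [one_mul] at this
  have hB : MeasurableSet ((fun x => x * (t : G')⁻¹) ⁻¹' A) := measurable_mul_const _ hA
  have hB' : μ' ((fun x => x * (t : G')⁻¹) ⁻¹' A) ≠ ∞ := by
    haveI := C.t.right
    rwa [measure_preimage_mul_right]
  refine Submodule.subset_span ⟨_, (hb a ha).1, _, hB, hB', Prod.ext ?_ ?_⟩
  · rw [← (hb a ha).2, ← comp_ind]
    refine congrArg (b.compLpL 2 μ') (Lp.ext ?_)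
    filter_upwards [sh_ae C.t (t : G')⁻¹ (indicatorConstLp 2 hA hA' (v a)),
      ae_sh C.t (t : G')⁻¹ (indicatorConstLp_coeFn (p := 2) (hs := hA) (hμs := hA') (c := v a)),
      indicatorConstLp_coeFn (p := 2) (hs := hB) (hμs := hB') (c := v a)] with x h1 h2 h3
    exact (h1.trans h2).trans h3.symm
  · change 1 * (a * up ι (C.t.P A)) * c = a * c * _
    rw [one_mul, mul_assoc, mul_assoc]
    refine congrArg (a * ·) (h.sl.ext_en fun k i => ?_)
    rw [h.sl.en_mul_up, h.sl.en_up_mul, (hc k i).P hB, Set.preimage_preimage]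
    simp only [mul_inv_cancel_right, Set.preimage_id']

theorem dense : Dense (Prod.fst '' (Rel C ι D v : Set (Lp H 2 μ' × (𝒦 →L[ℂ] 𝒦)))) := by
  let R : Submodule ℂ (Lp H 2 μ') := (Rel C ι D v).map (LinearMap.fst ℂ _ _)
  intro X
  change X ∈ R.topologicalClosure
  refine Lp.induction ENNReal.ofNat_ne_top (fun X => X ∈ R.topologicalClosure)
    (fun c A hA hA' => ?_) (fun f g hf hg _ a b => Submodule.add_mem _ a b)
    R.isClosed_topologicalClosure X
  rw [Lp.simpleFunc.coe_indicatorConst]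
  refine h.gns.ind (p := fun c => indicatorConstLp 2 hA hA'.ne c ∈ R.topologicalClosure)
    (R.isClosed_topologicalClosure.preimage ?_) (fun a ha => ?_) c
  · refine (LipschitzWith.of_dist_le_mul (K := (μ'.real A ^ (1 / (2 : ℝ≥0∞).toReal)).toNNReal)
      fun c c' => ?_).continuous
    rw [dist_eq_norm, dist_eq_norm, indicatorConstLp_sub, mul_comm]
    exact norm_indicatorConstLp_le.trans
      (mul_le_mul_of_nonneg_left (Real.le_coe_toNNReal _) (norm_nonneg _))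
  · exact R.le_topologicalClosure ⟨_, Submodule.subset_span ⟨a, ha, A, hA, hA'.ne, rfl⟩, rfl⟩

end Mod

end Vale.Agent.P092IN
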